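import Vale.Agent.P144Y.V.Van
import Vale.Agent.P144M.Atlas

/-!
The domains of the class give the abstract data.
-/

namespace Vale.Agent.P144Y.V

open Filter Topology Complex Metric Set Vale.Agent.P144
open Vale.Agent.P144.H170 (F2 PP Mk)
open Vale.Agent.P144.H365 (cH MF mem_MF PP_eq rs rs_real rs_sub)
open Vale.Agent.P144G (pt_sub')
open Vale.Agent.P144M

theorem uniX {D : Set ℂ} {ι : Type} [Fintype ι] (c : Chs D ι) : UniX D c.Bd := by
  classical
  intro κ κ' _ _ ζ ω q q1 q2 T hω hinj hT hTD hTM hq he hc1 hc2 b1 b2 r1 r2 hs z hz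
  have hb : c.Bg fun z => cH * ((q1 z - q2 z) ^ 2 / PP ζ ω z) := by
    intro ε hε
    obtain ⟨ρ1, a1, a2⟩ := b1 (ε / 4) (by positivity)
    obtain ⟨ρ2, a3, a4⟩ := b2 (ε / 4) (by positivity)
    refine ⟨max ρ1 ρ2, max_lt a1 a3, fun j y hy a => ?_⟩
    have d1 := a2 j y hy ((le_max_left _ _).trans_lt a)
    have d2 := a4 j y hy ((le_max_right _ _).trans_lt a)
    have e : ∀ f : ℂ → ℂ, c.X j (fun z => cH * (f z ^ 2 / PP ζ ω z)) y =
        -(cH * (c.φ j y / deriv (c.φ j) y) / PP ζ ω y) * f y ^ 2 := fun f => by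
      unfold Chs.X; ring
    unfold F2 at d1 d2
    rw [e] at d1 d2
    rw [e fun z => q1 z - q2 z]
    linarith [pt_sub' (-(cH * (c.φ j y / deriv (c.φ j) y) / PP ζ ω y)) (q1 y) (q2 y)]
  set E : ℂ → ℂ := fun z => ∏ m ∈ (MF ζ ω).filter (· ∉ D), (z - m) with hE
  have E0 : ∀ y ∈ D, E y ≠ 0 := fun y hy => Finset.prod_ne_zero_iff.2 fun m hm =>
    sub_ne_zero.2 fun e => (Finset.mem_filter.1 hm).2 (e ▸ hy)
  have Ed : DifferentiableOn ℂ E D := by
    simp only [hE]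
    fun_prop
  have sp : ∀ m ∈ D, ∏ m' ∈ (MF ζ ω).erase m, (m - m') =
      E m * ∏ m' ∈ ((MF ζ ω).filter (· ∈ D)).erase m, (m - m') := fun m hm => by
    rw [← Finset.prod_filter_mul_prod_filter_not ((MF ζ ω).erase m) (· ∈ D), mul_comm,
      Finset.filter_erase, Finset.filter_erase,
      Finset.erase_eq_of_notMem (s := (MF ζ ω).filter (· ∉ D))
      fun h => (Finset.mem_filter.1 h).2 hm]
  have h0 := chs_zero c (Q := fun z => cH * q z ^ 2 / E z)
    (((hq.pow 2).const_mul _).div Ed E0) (P := (MF ζ ω).filter (· ∈ D))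
    (fun m hm => (Finset.mem_filter.1 hm).2) (fun m hm => ?_)
    (hb.congr hT.isCompact hTD fun y hy a => by
      rw [he y hy a, PP_eq hinj, ← Finset.prod_filter_mul_prod_filter_not (MF ζ ω) (· ∈ D),
        div_div, mul_div_assoc, mul_comm (E y)]) hz
  · have hcH : cH ≠ 0 := fun h => by
      have := congrArg re h
      simp [cH] at this
    exact pow_eq_zero_iff two_ne_zero |>.1 ((mul_eq_zero.1
      ((div_eq_zero_iff.1 h0).resolve_right (E0 z hz))).resolve_left hcH)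
  · obtain ⟨hm, hD⟩ := Finset.mem_filter.1 hm
    rcases mem_MF.1 hm with ⟨p, rfl⟩ | ⟨p, rfl⟩
    · obtain ⟨c1, hc1', e1⟩ := rs_real hinj hm (hc1 p hD) (r1 p hD)
      obtain ⟨c2, hc2', e2⟩ := rs_real hinj hm (hc2 p hD) (r2 p hD)
      obtain ⟨t, ht, e3⟩ := rs_sub hc1' hc2' e1 e2 (he _ hD fun h => hTM _ h (Or.inl ⟨p, rfl⟩))
      unfold rs at e3
      rw [div_div, mul_div_assoc, ← sp _ hD, e3, ofReal_re]
      exact ht
    · simp [hs p]

theorem dom : SDom := by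
  intro D hD hs hsm
  obtain ⟨ι, _, ⟨c⟩⟩ := P144M.atlas hD hs
  have hF := P144Q.L.fat3 hD
  refine ⟨⟨⟨D, c.Bd, hD.1, hsm, fun T hT => P144M.pre_diff_fin hD.1 hs.isPreconnected hT,
    c.toChs.smul, c.toChs.zero, c.toChs.uni, hF, fun h => P144T.V.van0 hD.1 hsm hF h,
    fun h F h1 h2 => ?_⟩, uniX c.toChs, fun h => van0 hD.1 hsm hF h, fun h F h1 h2 => ?_⟩, rfl⟩
  · obtain ⟨cv, c1, c2, c3⟩ := P144T.V.van hD.1 hsm hF h
    exact c.bdc h.cpt h.sub h1 h2 c1 c2 c3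
  · obtain ⟨cv, c1, c2, c3⟩ := van hD.1 hsm hF h
    exact c.bdc h.cpt h.sub h1 h2 c1 c2 c3

end Vale.Agent.P144Y.V
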