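import Vale.Agent.P144Y.B.Clu
import Vale.Agent.P144S.V.Sand
import Vale.Agent.P144S.K.Blk

/-!
Families of sets of cells lie between families of unions of blocks.
-/

namespace Vale.Agent.P144Y.V

open Filter Topology Metric Vale.Agent.P144
open Vale.Agent.P144.H170 (Pt pt nf ev_nf pt_fl_norm)
open Vale.Agent.P144Q.V (king fin_sd sd_le)
open Vale.Agent.P144S.V (Rn blk_le self_Vx small0 low mem_low low_sub low_blk hull fl_pt rn_of)
open Vale.Agent.P144S.K (ctr out_of ctr_out)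
open Vale.Agent.P144Y.B (cn_mono kg_of_cn)
open Relation

theorem kg_blk {P : Finset Site} (hB : Blk P) {v w : Site} (hv : v ∉ Vx P) (hw : w ∉ Vx P)
    (h : Cn P v w) : Kg (Vx P) v w := by
  have hv' : v ∉ P := fun c => hv (self_Vx c)
  have key : ∀ g, Cn P v g → g ∉ P ∧ Kg (Vx P) v (ctr g) := by
    intro g hg
    induction hg with
    | refl =>
      refine ⟨hv', .single ⟨ctr_out hB hv', ?_, ?_⟩⟩ <;> simp only [ctr, abs_le] <;> omega
    | @tail f g _ st ih =>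
      have s2 := st.2
      have cs : (g.1 = f.1 + 1 ∧ g.2 = f.2) ∨ (g.1 = f.1 - 1 ∧ g.2 = f.2) ∨
          (g.1 = f.1 ∧ g.2 = f.2 + 1) ∨ (g.1 = f.1 ∧ g.2 = f.2 - 1) := by
        rcases abs_cases (f.1 - g.1) with e | e <;> rcases abs_cases (f.2 - g.2) with e' | e' <;>
          omega
      refine ⟨st.1, ReflTransGen.tail (ReflTransGen.tail ih.2
        (c := (f.1 / 2 + g.1 / 2 + 1, f.2 / 2 + g.2 / 2 + 1))
        ⟨out_of hB ih.1 st.1 ?_, ?_, ?_⟩) ⟨ctr_out hB st.1, ?_, ?_⟩⟩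
      · simp only [Set.mem_insert_iff, Set.mem_singleton_iff]
        omega
      all_goals
        simp only [ctr, abs_le]
        omega
  refine ReflTransGen.tail (key w h).2 ⟨hw, ?_, ?_⟩ <;> simp only [ctr, abs_le] <;> omega

/-- The criterion for families of blocks. -/
theorem famB {D : Set ℂ} {P : ℝ → Finset Site}
    (inn : ∀ z ∈ D, ∀ᶠ kx in nf (𝓝[>] (0:ℝ)) (fun a => a) z, kx.2 ∈ P kx.1)
    (sub : ∀ ε > (0:ℝ), ∀ᶠ a in 𝓝[>] (0:ℝ), ∀ x ∈ P a, ∃ z ∈ D, ‖pt a x - z‖ ≤ ε)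
    (lc : LC (𝓝[>] 0) (fun a => a) P) (blk : ∀ a, Blk (P a)) : FamB D P := by
  refine ⟨⟨⟨inn, sub, lc.imp fun r h => ⟨h.1, h.2.mono fun a h x hx y hy e =>
      kg_of_cn (h x hx y hy e)⟩⟩, lc⟩, blk,
    fun z hz => (inn z hz).mono fun kx => self_Vx, fun ε hε => ?_,
    lc.imp fun r h => ⟨h.1, h.2.mono fun a h x hx y hy e => kg_blk (blk a) hx hy
      (h x (fun c => hx (self_Vx c)) y (fun c => hy (self_Vx c)) e)⟩⟩
  filter_upwards [sub (ε / 2) (by positivity), small0 (s := ε / 4) (by positivity)]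
    with a h1 ⟨h2, h3⟩ x hx
  obtain ⟨f, hf, h4⟩ := Finset.mem_biUnion.1 hx
  obtain ⟨z, hz, h5⟩ := h1 f hf
  have h6 := king h2 (x := f) (y := x)
    (by rcases AL.mem_cnr.1 h4 with rfl | rfl | rfl | rfl <;> simp)
    (by rcases AL.mem_cnr.1 h4 with rfl | rfl | rfl | rfl <;> simp)
  exact ⟨z, hz, by linarith [norm_sub_le_norm_sub_add_norm_sub (pt a x) (pt a f) z]⟩

theorem low_lc {P : ℝ → Finset Site} (h : LC (𝓝[>] 0) (fun a => a) P) :
    LC (𝓝[>] 0) (fun a => a) fun a => low (P a) := by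
  obtain ⟨r, hr, h⟩ := h
  refine ⟨r / 2, by positivity, ?_⟩
  filter_upwards [h, small0 (s := r / 8) (by positivity)] with a h ⟨ha, h0⟩
  have key : ∀ v ∉ low (P a), ∃ y ∉ P a, Rn (low (P a)) v y ∧ ‖pt a y - pt a v‖ ≤ 2 * a := by
    intro v hv
    have h1 := mt mem_low.2 hv
    push Not at h1
    obtain ⟨y, e1, e2, hy⟩ := h1
    exact ⟨y, hy, Rn.king (blk_le e1) (blk_le e2)
      (fun c => hv (low_blk _ (y.1, v.2) v e1.symm rfl c)) fun c => hy (low_sub _ c),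
      king ha (blk_le e1) (blk_le e2)⟩
  intro v hv w hw e
  obtain ⟨y, h1, h2, d1⟩ := key v hv
  obtain ⟨y', h3, h4, d2⟩ := key w hw
  have d3 := norm_sub_le_norm_sub_add_norm_sub (pt a y) (pt a v) (pt a y')
  have d4 := norm_sub_le_norm_sub_add_norm_sub (pt a v) (pt a w) (pt a y')
  rw [norm_sub_rev (pt a w)] at d4
  exact ReflTransGen.trans h2 (ReflTransGen.trans
    (cn_mono (low_sub _) (h y h1 y' h3 (by linarith))) (Rn.rev h4 hw))

theorem low_fam {D : Set ℂ} {P : ℝ → Finset Site} (hP : FamP D P) :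
    FamB D fun a => low (P a) :=
  famB (fun z hz => (hP.1.near tendsto_id hz 1).mono fun kx h =>
      mem_low.2 fun y e1 e2 => h y (by simpa using blk_le e1) (by simpa using blk_le e2))
    (fun ε hε => (hP.1.sub ε hε).mono fun a h x hx => h x (low_sub _ hx))
    (low_lc hP.2) fun _ => low_blk _

/-- Joined to a site of `O` outside the blocks which meet `P`. -/
def Jn (P : Finset Site) (O : Set Site) (x : Site) : Prop :=
  ∃ o ∈ O, o ∉ hull P ∧ Rn (hull P) o x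

open Classical in
/-- The sites which are separated from `O` by the blocks which meet `P`. -/
noncomputable def upp (P : Finset Site) (O : Set Site) : Finset Site :=
  if h : {x | ¬ Jn P O x}.Finite then h.toFinset else ∅

theorem mem_upp {P : Finset Site} {O : Set Site} {x : Site} (h1 : {x | ¬ Jn P O x}.Finite) :
    x ∈ upp P O ↔ ¬ Jn P O x := by
  rw [upp, dif_pos h1, Set.Finite.mem_toFinset]
  rfl

theorem upp_blk (P : Finset Site) (O : Set Site) : Blk (upp P O) := by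
  intro x y e1 e2 hx
  by_cases h : {x | ¬ Jn P O x}.Finite
  · rw [mem_upp h] at hx ⊢
    rintro ⟨o, ho, ho', hy⟩
    have h1 := Rn.out hy ho'
    exact hx ⟨o, ho, ho', ReflTransGen.trans hy (Rn.king (blk_le e1.symm) (blk_le e2.symm)
      (fun ⟨w, c0, c1, c2⟩ => h1 ⟨w, c0, c1.trans e1, c2⟩)
      fun ⟨w, c0, c1, c2⟩ => h1 ⟨w, c0, c1.trans e1, c2.trans e2⟩)⟩
  · rw [upp, dif_neg h] at hx
    simp at hx

theorem rn_upp {P : Finset Site} {O : Set Site} (h1 : {x | ¬ Jn P O x}.Finite) {o v : Site}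
    (ho : o ∈ O) (ho' : o ∉ hull P) (hv : Rn (hull P) o v) : Rn (upp P O) o v := by
  induction hv with
  | refl => exact .refl
  | tail a1 a2 ih =>
    exact .tail ih ⟨fun c => (mem_upp h1).1 c ⟨o, ho, ho', .tail a1 a2⟩, a2.2⟩

theorem cn_hull {P : Finset Site} {x y : Site} (h : Rn (hull P) x y) : Cn P x y :=
  ReflTransGen.mono (fun _ w e => ⟨fun c => e.1 ⟨w, c, rfl, rfl⟩, e.2⟩) _ _ h

/-- Close sites away from `D` are joined outside the blocks which meet `P`. -/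
theorem near_conn {D : Set ℂ} {P : ℝ → Finset Site} {r : ℝ}
    (hO : ∀ ε > (0 : ℝ), ∃ δ > (0 : ℝ), ∀ z w : ℂ, ‖z - w‖ ≤ r → ε ≤ infDist z D →
      ε ≤ infDist w D → JoinedIn {u | δ ≤ infDist u D} z w)
    (hP : Fam0 D P) {ε : ℝ} (hε : 0 < ε) : ∀ᶠ a in 𝓝[>] (0:ℝ), ∀ x y : Site,
      ε ≤ infDist (pt a x) D → ε ≤ infDist (pt a y) D → ‖pt a x - pt a y‖ ≤ r →
        x ∉ hull (P a) ∧ Rn (hull (P a)) x y := by
  obtain ⟨δ, hδ, h⟩ := hO ε hε
  filter_upwards [hP.sub (δ / 4) (by positivity), small0 (s := δ / 8) (by positivity)]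
    with a h2 ⟨h3, h4⟩ x y hx hy e
  have hQ : ∀ u : ℂ, δ ≤ infDist u D → ∀ x, ‖pt a x - u‖ ≤ 4 * a → x ∉ hull (P a) := by
    rintro u hu x hx ⟨y, hy, e1, e2⟩
    obtain ⟨z, hz, h5⟩ := h2 y hy
    have a1 := infDist_le_dist_of_mem (x := u) hz
    have a2 := norm_sub_le_norm_sub_add_norm_sub u (pt a x) z
    have a3 := norm_sub_le_norm_sub_add_norm_sub (pt a x) (pt a y) z
    rw [norm_sub_rev u (pt a x)] at a2
    rw [dist_eq_norm] at a1
    linarith [king h3 (blk_le e1) (blk_le e2)]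
  have hj := h _ _ e hx hy
  refine ⟨hQ _ hj.source_mem _ (by rw [sub_self, norm_zero]; positivity), ?_⟩
  obtain ⟨γ, hγ⟩ := hj
  have := rn_of h3 (isPreconnected_range γ.continuous)
    (fun u ⟨t, ht⟩ => hQ u (ht ▸ hγ t)) γ.source_mem_range γ.target_mem_range
  rwa [fl_pt h3, fl_pt h3] at this

theorem sand : SSand := by
  intro D P hD ⟨r, hr, hO⟩ hP
  obtain ⟨κ, hκ, hκ1, r₀, hr₀, hF⟩ := P144Q.V.fat' hD.fat
  obtain ⟨s, s0, s1, s2⟩ : ∃ s > (0 : ℝ), s ≤ r₀ ∧ 9 * s ≤ r :=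
    ⟨min r₀ (r / 9), by positivity, min_le_left _ _, by linarith [min_le_right r₀ (r / 9)]⟩
  have k0 : κ * s ≤ s := mul_le_of_le_one_left s0.le hκ1
  have k1 : 0 < κ * s := by positivity
  set O : ℝ → Set Site := fun a => {x | κ * s / 2 ≤ infDist (pt a x) D} with hOd
  have deep : ∀ᶠ a in 𝓝[>] (0:ℝ), ∀ p ∉ D, ∃ o ∈ O a, ‖pt a o - p‖ ≤ 2 * s := by
    filter_upwards [small0 (s := κ * s / 4) (by positivity)] with a ⟨ha, h0⟩ p hp
    obtain ⟨w, c2, c3⟩ := hF p hp s s0 s1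
    have c4 := pt_fl_norm ha w
    refine ⟨fl a w, (le_infDist hD.ne).2 fun z hz => ?_, ?_⟩
    · by_contra hc
      refine c3 z ?_ hz
      have d1 := norm_sub_le_norm_sub_add_norm_sub z (pt a (fl a w)) w
      rw [dist_eq_norm, norm_sub_rev] at hc
      linarith [not_le.1 hc]
    · linarith [norm_sub_le_norm_sub_add_norm_sub (pt a (fl a w)) w p]
  have jn : ∀ ε > (0 : ℝ), ∀ᶠ a in 𝓝[>] (0:ℝ), ∀ x, Jn (P a) (O a) x ∨
      ∃ z ∈ D, ‖pt a x - z‖ ≤ ε := fun ε hε => by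
    filter_upwards [deep, near_conn hO hP.1 (ε := min ε (κ * s / 2)) (by positivity)]
      with a h1 h2 x
    by_cases hx : min ε (κ * s / 2) ≤ infDist (pt a x) D
    · obtain ⟨o, ho, d⟩ := h1 (pt a x) fun c => by
        rw [infDist_zero_of_mem c] at hx
        exact absurd hx (not_le.2 (by positivity))
      obtain ⟨e1, e2⟩ := h2 o x ((min_le_right _ _).trans ho) hx (by linarith)
      exact Or.inl ⟨o, ho, e1, e2⟩
    · obtain ⟨z, hz, h5⟩ := (infDist_lt_iff hD.ne).1 (not_le.1 hx)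
      rw [dist_eq_norm] at h5
      exact Or.inr ⟨z, hz, h5.le.trans (min_le_left _ _)⟩
  have fin : ∀ᶠ a in 𝓝[>] (0:ℝ), {x | ¬ Jn (P a) (O a) x}.Finite := by
    filter_upwards [jn _ (half_pos one_pos), small0 one_pos] with a h2 ⟨h3, _⟩
    refine (fin_sd ((0:ℂ).re / a, (0:ℂ).im / a) (2 / a)).subset fun x hx => ?_
    obtain ⟨z, hz, h4⟩ := (h2 x).resolve_left hx
    have a1 := mem_ball.1 (hD.small hz)
    rw [dist_eq_norm] at a1
    refine ((sd_le h3 zero_le_one 0 x).2 (by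
      linarith [norm_sub_le_norm_sub_add_norm_sub (pt a x) z 0])).trans_lt ?_
    gcongr
    norm_num
  have sub : ∀ᶠ a in 𝓝[>] (0:ℝ), P a ⊆ upp (P a) (O a) := fin.mono fun a h x hx =>
    (mem_upp h).2 fun ⟨o, _, ho', c⟩ => Rn.out c ho' ⟨x, hx, rfl, rfl⟩
  refine ⟨_, fun a => upp (P a) (O a), low_fam hP, famB (fun z hz => ?_) (fun ε hε => ?_) ?_
    fun a => upp_blk _ _, sub.mono fun a h => ⟨low_sub _, h⟩⟩
  · filter_upwards [hP.1.inn z hz, H170.ev_nf_of sub] with kx h1 h2 using h2 h1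
  · filter_upwards [fin, jn ε hε] with a h1 h2 x hx
    exact (h2 x).resolve_left ((mem_upp h1).1 hx)
  have h1 : {x : ℂ | s ≤ infDist x Dᶜ} ⊆ D := fun x hx => by
    by_contra hc
    have : s ≤ infDist x Dᶜ := hx
    rw [infDist_zero_of_mem hc] at this
    linarith
  have h2 : IsCompact {x : ℂ | s ≤ infDist x Dᶜ} :=
    isCompact_of_isClosed_isBounded (isClosed_le continuous_const (continuous_infDist_pt _))
      (isBounded_ball.subset (h1.trans hD.small))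
  have hne : Dᶜ.Nonempty := ⟨1, fun h' => by
    have := hD.small h'
    norm_num at this⟩
  obtain ⟨t, ht, hc⟩ := hP.2
  refine ⟨t, ht, ?_⟩
  filter_upwards [hc, fin, deep, near_conn hO hP.1 (ε := κ * s / 2) (by positivity),
    hP.1.cpt h2 h1, small0 (s := s / 2) (by positivity)] with a b1 b2 b3 b4 b5 ⟨ha, b6⟩
  have ex : ∀ v ∉ P a, ∃ d ∈ O a, ‖pt a d - pt a v‖ ≤ 3 * s := fun v hv => by
    obtain ⟨p, hp, c1⟩ := (infDist_lt_iff hne).1 (not_le.1 fun b => hv (b5 v b))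
    obtain ⟨d, hd, c2⟩ := b3 p hp
    rw [dist_eq_norm, norm_sub_rev] at c1
    exact ⟨d, hd, by linarith [norm_sub_le_norm_sub_add_norm_sub (pt a d) p (pt a v)]⟩
  have key : ∀ o ∈ O a, o ∉ P a → ∀ v, Cn (P a) o v → ∀ d ∈ O a, ‖pt a d - pt a v‖ ≤ 3 * s →
      Rn (hull (P a)) o d := by
    intro o ho ho' v hv
    induction hv with
    | refl =>
      intro d hd e
      rw [norm_sub_rev] at e
      exact (b4 o d ho hd (by linarith)).2
    | @tail v w a1 a2 ih =>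
      intro d hd e
      obtain ⟨d', hd', e'⟩ := ex v (Rn.out (Q := P a) a1 ho')
      have := abs_nonneg (v.1 - w.1)
      have := abs_nonneg (v.2 - w.2)
      have d0 := king ha (x := w) (y := v) (by linarith [a2.2]) (by linarith [a2.2])
      have d1 := norm_sub_le_norm_sub_add_norm_sub (pt a d') (pt a v) (pt a d)
      have d2 := norm_sub_le_norm_sub_add_norm_sub (pt a v) (pt a w) (pt a d)
      rw [norm_sub_rev (pt a w)] at d2
      exact ReflTransGen.trans (ih d' hd' e') (b4 d' d hd' hd (by linarith)).2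
  intro x hx y hy e
  rw [mem_upp b2, not_not] at hx hy
  obtain ⟨o, ho, ho', hx⟩ := hx
  obtain ⟨o₂, ho₂, ho₂', hy⟩ := hy
  have nP : ∀ u, u ∉ hull (P a) → u ∉ P a := fun u h c => h ⟨u, c, rfl, rfl⟩
  have c1 : Cn (P a) o o₂ := ReflTransGen.trans (cn_hull hx) (ReflTransGen.trans
    (b1 x (nP x (Rn.out hx ho')) y (nP y (Rn.out hy ho₂')) e) (cn_hull (Rn.rev hy ho₂')))
  have c2 := key o ho (nP o ho') o₂ c1 o₂ ho₂ (by rw [sub_self, norm_zero]; positivity)
  exact ReflTransGen.trans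
    (Rn.rev (rn_upp b2 ho ho' hx) fun c => (mem_upp b2).1 c ⟨o, ho, ho', .refl⟩)
    (rn_upp b2 ho ho' (ReflTransGen.trans c2 hy))

end Vale.Agent.P144Y.V
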